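import Vale.Agent.P218FT.ConvE

/-! Smooth convergence along all ultrafilters gives smooth convergence along the filter. -/

open Set Filter Topology Metric
open scoped ContDiff RealInnerProductSpace

namespace Vale.Agent.P218S7

open Vale.Agent.P218FT Vale.Agent.P218FT.Conv Vale.Agent.P218FT.Chart

variable {ι : Type}

section abstract

variable {Z : Type} [NormedAddCommGroup Z] [NormedSpace ℝ Z] [FiniteDimensional ℝ Z]

omit [FiniteDimensional ℝ Z] in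
/-- a local equation of a graph has a nonzero vertical derivative -/
lemma vert_ne {v : Z × ℝ → ℝ} {h₀ : Z → ℝ} {ξ : Z} (hv : DifferentiableAt ℝ v (ξ, h₀ ξ))
    (hh : DifferentiableAt ℝ h₀ ξ) (h0 : ∀ᶠ y in 𝓝 ξ, v (y, h₀ y) = 0)
    (hne : fderiv ℝ v (ξ, h₀ ξ) ≠ 0) : fderiv ℝ v (ξ, h₀ ξ) (0, 1) ≠ 0 := by
  intro hz
  apply hne
  have h3 := HasFDerivAt.comp ξ (f := fun y => (y, h₀ y)) hv.hasFDerivAt
    ((hasFDerivAt_id ξ).prodMk hh.hasFDerivAt)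
  have h4 : (v ∘ fun y => (y, h₀ y)) =ᶠ[𝓝 ξ] fun _ => 0 := h0
  have h5 := h3.unique ((hasFDerivAt_const (0 : ℝ) ξ).congr_of_eventuallyEq h4)
  refine ContinuousLinearMap.ext fun q => ?_
  have h6 := congrArg (fun L : Z →L[ℝ] ℝ => L q.1) h5
  simp only [ContinuousLinearMap.comp_apply, ContinuousLinearMap.prod_apply,
    ContinuousLinearMap.id_apply, _root_.zero_apply] at h6
  have h7 : q = (q.1, fderiv ℝ h₀ ξ q.1) + (q.2 - fderiv ℝ h₀ ξ q.1) • ((0 : Z), (1 : ℝ)) := by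
    simp
  rw [h7, map_add, map_smul, h6, hz]
  simp

/-- the local data of smooth convergence of subsets of `Z × ℝ` on the open set `O` -/
structure Loc (U : Filter ι) (A : ι → Set (Z × ℝ)) (A₀ O : Set (Z × ℝ)) : Prop where
  out : ∀ q ∈ O, q ∉ A₀ → ∃ W ∈ 𝓝 q, ∀ᶠ i in U, ∀ p ∈ W, p ∉ A i
  loc : ∀ q ∈ O, q ∈ A₀ → ∃ (W : Set (Z × ℝ)) (w : ι → Z × ℝ → ℝ) (v : Z × ℝ → ℝ), IsOpen W ∧
    q ∈ W ∧ CInf U W w v ∧ fderiv ℝ v q ≠ 0 ∧ (∀ p ∈ W, p ∈ A₀ ↔ v p = 0) ∧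
    ∀ᶠ i in U, ∀ p ∈ W, p ∈ A i ↔ w i p = 0

open Classical in
/-- the height of `A` over `ξ` in the interval `K` -/
noncomputable def ht (A : Set (Z × ℝ)) (K : Set ℝ) (ξ : Z) : ℝ :=
  if h : ∃ z ∈ K, (ξ, z) ∈ A then h.choose else 0

omit [NormedAddCommGroup Z] [NormedSpace ℝ Z] [FiniteDimensional ℝ Z] in
lemma ht_eq {A : Set (Z × ℝ)} {K : Set ℝ} {ξ : Z} {a : ℝ} (ha : a ∈ K)
    (h : ∀ z ∈ K, (ξ, z) ∈ A ↔ z = a) : ht A K ξ = a := by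
  have h1 : ∃ z ∈ K, (ξ, z) ∈ A := ⟨a, ha, (h a ha).2 rfl⟩
  rw [ht, dif_pos h1]
  exact (h _ h1.choose_spec.1).1 h1.choose_spec.2

lemma loc_graph {U : Filter ι} [U.NeBot] {A : ι → Set (Z × ℝ)} {A₀ O : Set (Z × ℝ)}
    (H : Loc U A A₀ O) {D : Set Z} (hD : IsOpen D) {z₀ ρ : ℝ} (hO : D ×ˢ closedBall z₀ ρ ⊆ O)
    {h₀ : Z → ℝ} (hs : ContDiffOn ℝ ∞ h₀ D)
    (hg : ∀ ξ ∈ D, h₀ ξ ∈ ball z₀ ρ ∧ ∀ z ∈ closedBall z₀ ρ, (ξ, z) ∈ A₀ ↔ z = h₀ ξ)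
    {ξ : Z} (hξ : ξ ∈ D) :
    ∃ δ : ℝ, 0 < δ ∧ CInf U (ball ξ δ) (fun i => ht (A i) (closedBall z₀ ρ)) h₀ ∧
      ∀ᶠ i in U, ∀ y ∈ ball ξ δ, ht (A i) (closedBall z₀ ρ) y ∈ ball z₀ ρ ∧
        ∀ z ∈ closedBall z₀ ρ, (y, z) ∈ A i ↔ z = ht (A i) (closedBall z₀ ρ) y := by
  have hm : ∀ y ∈ D, (y, h₀ y) ∈ A₀ := fun y hy =>
    ((hg y hy).2 _ (ball_subset_closedBall (hg y hy).1)).2 rfl
  obtain ⟨W, w, v, h1, h2, h3, h4, h5, h6⟩ := H.loc (ξ, h₀ ξ)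
    (hO (mk_mem_prod hξ (ball_subset_closedBall (hg ξ hξ).1))) (hm ξ hξ)
  have hc : ContDiffAt ℝ ∞ h₀ ξ := hs.contDiffAt (hD.mem_nhds hξ)
  have hd : fderiv ℝ v (ξ, h₀ ξ) (0, 1) ≠ 0 := by
    refine vert_ne ((h3.smooth_lim.contDiffAt (h1.mem_nhds h2)).differentiableAt (by simp))
      (hc.differentiableAt (by simp)) ?_ h4
    have : Tendsto (fun y => (y, h₀ y)) (𝓝 ξ) (𝓝 (ξ, h₀ ξ)) :=
      (continuousAt_id.prodMk hc.continuousAt).tendsto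
    filter_upwards [this.eventually (h1.mem_nhds h2), hD.mem_nhds hξ] with y a1 a2
    exact (h5 _ a1).1 (hm y a2)
  have hW' : IsOpen (W ∩ D ×ˢ ball z₀ ρ) := h1.inter (hD.prod isOpen_ball)
  obtain ⟨δ₁, ρ₁, f, f₀, hδ, hρ, hsub, hcv, -, b1, b2⟩ := impl hW' (h3.mono inter_subset_left)
    (v := (ξ, h₀ ξ)) ⟨h2, mk_mem_prod hξ (hg ξ hξ).1⟩ ((h5 _ h2).1 (hm ξ hξ)) hd
  simp only at hsub hcv b1 b2
  have hK : IsCompact (closedBall z₀ ρ \ ball (h₀ ξ) ρ₁) :=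
    (isCompact_closedBall z₀ ρ).diff isOpen_ball
  have hfar : {p : (ι × Z) × ℝ | (p.1.2, p.2) ∉ A p.1.1} ∈
      (U ×ˢ 𝓝 ξ) ×ˢ 𝓝ˢ (closedBall z₀ ρ \ ball (h₀ ξ) ρ₁) := by
    refine hK.mem_prod_nhdsSet_of_forall fun z hz => ?_
    obtain ⟨V, hV, a1⟩ := H.out (ξ, z) (hO (mk_mem_prod hξ hz.1)) fun a2 => hz.2 (by
      rw [((hg ξ hξ).2 z hz.1).1 a2]
      exact mem_ball_self hρ)
    rw [nhds_prod_eq] at hV
    obtain ⟨V₁, hV₁, V₂, hV₂, hV⟩ := mem_prod_iff.1 hV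
    exact mem_of_superset (prod_mem_prod (prod_mem_prod a1 hV₁) hV₂) fun p hp =>
      hp.1.1 _ (hV (mk_mem_prod hp.1.2 hp.2))
  obtain ⟨B₁, hB₁, B₂, hB₂, hB⟩ := mem_prod_iff.1 hfar
  obtain ⟨C₁, hC₁, C₂, hC₂, hC⟩ := mem_prod_iff.1 hB₁
  obtain ⟨δ₂, hδ₂, hball⟩ := Metric.mem_nhds_iff.1 hC₂
  have s1 : ball ξ (min δ₁ δ₂) ⊆ ball ξ δ₁ := ball_subset_ball (min_le_left _ _)
  have s2 : ball ξ (min δ₁ δ₂) ⊆ C₂ := (ball_subset_ball (min_le_right _ _)).trans hball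
  have key : ∀ᶠ i in U, ∀ y ∈ ball ξ (min δ₁ δ₂), f i y ∈ ball z₀ ρ ∧
      ∀ z ∈ closedBall z₀ ρ, (y, z) ∈ A i ↔ z = f i y := by
    filter_upwards [h6, b2, hC₁] with i c1 c2 c3 y hy
    have c4 := c2 y (s1 hy)
    refine ⟨(hsub (mk_mem_prod (s1 hy) (ball_subset_closedBall c4.1))).2.2, fun z hz => ?_⟩
    by_cases hz' : z ∈ ball (h₀ ξ) ρ₁
    · rw [c1 _ (hsub (mk_mem_prod (s1 hy) (ball_subset_closedBall hz'))).1]
      exact c4.2 z (ball_subset_closedBall hz')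
    · have c5 : (y, z) ∉ A i := hB (mk_mem_prod (hC (mk_mem_prod c3 (s2 hy)))
        (subset_of_mem_nhdsSet hB₂ ⟨hz, hz'⟩) : ((i, y), z) ∈ B₁ ×ˢ B₂)
      exact ⟨fun a => absurd a c5, fun a => absurd (a ▸ c4.1) hz'⟩
  have e1 : ∀ᶠ i in U, ∀ y ∈ ball ξ (min δ₁ δ₂), f i y = ht (A i) (closedBall z₀ ρ) y :=
    key.mono fun i hi y hy => (ht_eq (ball_subset_closedBall (hi y hy).1) (hi y hy).2).symm
  refine ⟨min δ₁ δ₂, lt_min hδ hδ₂, (hcv.mono s1).congr isOpen_ball e1 fun y hy => ?_, ?_⟩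
  · have c4 := b1 y (s1 hy)
    have c5 := hsub (mk_mem_prod (s1 hy) (ball_subset_closedBall c4.1))
    exact ((hg y c5.2.1).2 _ (ball_subset_closedBall c5.2.2)).1
      ((h5 _ c5.1).2 ((c4.2 _ (ball_subset_closedBall c4.1)).2 rfl))
  · filter_upwards [key, e1] with i a1 a2 y hy
    rw [← a2 y hy]
    exact a1 y hy

omit [NormedSpace ℝ Z] [FiniteDimensional ℝ Z] in
/-- from local statements along ultrafilters to a uniform statement on a compact set -/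
lemma ev_compact {l : Filter ι} {K : Set Z} (hK : IsCompact K) {P : ι → Z → Prop}
    (h : ∀ U : Ultrafilter ι, ↑U ≤ l → ∀ ξ ∈ K, ∃ δ : ℝ, 0 < δ ∧ ∀ᶠ i in U, ∀ y ∈ ball ξ δ, P i y) :
    ∀ᶠ i in l, ∀ y ∈ K, P i y := by
  refine mem_iff_ultrafilter.2 fun U hU => ?_
  have h1 : {p : ι × Z | P p.1 p.2} ∈ (U : Filter ι) ×ˢ 𝓝ˢ K := by
    refine hK.mem_prod_nhdsSet_of_forall fun ξ hξ => ?_
    obtain ⟨δ, hδ, a1⟩ := h U hU ξ hξ
    exact mem_of_superset (prod_mem_prod a1 (ball_mem_nhds ξ hδ)) fun p hp => hp.1 _ hp.2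
  obtain ⟨B₁, hB₁, B₂, hB₂, hB⟩ := mem_prod_iff.1 h1
  exact mem_of_superset hB₁ fun i hi y hy =>
    hB (mk_mem_prod hi (subset_of_mem_nhdsSet hB₂ hy) : (i, y) ∈ B₁ ×ˢ B₂)

/-- graphs along the filter -/
theorem graph_abs {l : Filter ι} [l.NeBot] {A : ι → Set (Z × ℝ)} {A₀ O : Set (Z × ℝ)}
    (hO : IsOpen O) (H : ∀ U : Ultrafilter ι, ↑U ≤ l → Loc U A A₀ O) {q : Z × ℝ} (hq : q ∈ O)
    {W : Set (Z × ℝ)} (hW : IsOpen W) (hqW : q ∈ W) {v : Z × ℝ → ℝ} (hv : ContDiff ℝ ∞ v)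
    (hA : ∀ p ∈ W, p ∈ A₀ ↔ v p = 0) (h0 : v q = 0) (hd : fderiv ℝ v q (0, 1) ≠ 0) :
    ∃ (δ ρ : ℝ) (h : ι → Z → ℝ) (h₀ : Z → ℝ), 0 < δ ∧ 0 < ρ ∧
      ball q.1 δ ×ˢ closedBall q.2 ρ ⊆ O ∧ CInf l (ball q.1 δ) h h₀ ∧ h₀ q.1 = q.2 ∧
      (∀ ξ ∈ ball q.1 δ, h₀ ξ ∈ ball q.2 ρ ∧ ∀ z ∈ closedBall q.2 ρ, (ξ, z) ∈ A₀ ↔ z = h₀ ξ) ∧
      ∀ᶠ i in l, ∀ ξ ∈ ball q.1 δ, h i ξ ∈ ball q.2 ρ ∧
        ∀ z ∈ closedBall q.2 ρ, (ξ, z) ∈ A i ↔ z = h i ξ := by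
  have hW' : IsOpen (W ∩ O ∩ ball q 1) := (hW.inter hO).inter isOpen_ball
  obtain ⟨δ, ρ, h', h₀, hδ, hρ, hsub, hc, e0, b1, -⟩ := impl (U := l) hW'
    (cinf_fixed hv (isBounded_ball.subset inter_subset_right))
    ⟨⟨hqW, hq⟩, mem_ball_self one_pos⟩ h0 hd
  have hg : ∀ ξ ∈ ball q.1 δ, h₀ ξ ∈ ball q.2 ρ ∧
      ∀ z ∈ closedBall q.2 ρ, (ξ, z) ∈ A₀ ↔ z = h₀ ξ := fun ξ hξ =>
    ⟨(b1 ξ hξ).1, fun z hz => (hA _ (hsub (mk_mem_prod hξ hz)).1.1).trans ((b1 ξ hξ).2 z hz)⟩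
  have hO' : ball q.1 δ ×ˢ closedBall q.2 ρ ⊆ O := fun p hp => (hsub hp).1.2
  have s1 : closedBall q.1 (δ / 2) ⊆ ball q.1 δ := closedBall_subset_ball (half_lt_self hδ)
  have s2 : ball q.1 (δ / 2) ⊆ ball q.1 δ := ball_subset_closedBall.trans s1
  have hK : IsCompact (closedBall q.1 (δ / 2)) := by
    have := FiniteDimensional.proper ℝ Z
    exact isCompact_closedBall _ _
  have L := fun (U : Ultrafilter ι) (hU : ↑U ≤ l) (ξ : Z) (hξ : ξ ∈ closedBall q.1 (δ / 2)) =>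
    loc_graph (H U hU) isOpen_ball hO' hc.smooth_lim hg (s1 hξ)
  refine ⟨δ / 2, ρ, fun i => ht (A i) (closedBall q.2 ρ), h₀, half_pos hδ, hρ,
    (prod_mono s2 Subset.rfl).trans hO', ⟨?_, hc.smooth_lim.mono s2, fun k => ?_,
      fun k => (hc.bdd k).imp fun C hC y hy => hC y (s2 hy)⟩, e0, fun ξ hξ => hg ξ (s2 hξ), ?_⟩
  · refine (ev_compact hK (P := fun i y => ContDiffAt ℝ ∞ (ht (A i) (closedBall q.2 ρ)) y)
      fun U hU ξ hξ => ?_).mono fun i hi y hy => (hi y (ball_subset_closedBall hy)).contDiffWithinAt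
    obtain ⟨η, hη, a1, -⟩ := L U hU ξ hξ
    exact ⟨η, hη, a1.smooth.mono fun i hi y hy => hi.contDiffAt (isOpen_ball.mem_nhds hy)⟩
  · intro u hu
    refine (ev_compact hK (P := fun i y => (iteratedFDeriv ℝ k h₀ y,
      iteratedFDeriv ℝ k (ht (A i) (closedBall q.2 ρ)) y) ∈ u)
      fun U hU ξ hξ => ?_).mono fun i hi y hy => hi y (ball_subset_closedBall hy)
    obtain ⟨η, hη, a1, -⟩ := L U hU ξ hξ
    exact ⟨η, hη, a1.conv k u hu⟩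
  · refine (ev_compact hK fun U hU ξ hξ => ?_).mono fun i hi y hy =>
      hi y (ball_subset_closedBall hy)
    obtain ⟨η, hη, -, a1⟩ := L U hU ξ hξ
    exact ⟨η, hη, a1⟩

end abstract

section flows

variable {l : Filter ι} {M : ι → ℝ → Set E3} {L : ℝ → Set E3} {I : Set ℝ}

/-- the linear part of the coordinates `((ξ, s), z) ↦ (s, x + J ξ + z e)` -/
noncomputable def coord (e : E3) (J : P2 →L[ℝ] E3) : (P2 × ℝ) × ℝ →L[ℝ] ℝ × E3 :=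
  ((ContinuousLinearMap.snd ℝ P2 ℝ).comp (ContinuousLinearMap.fst ℝ (P2 × ℝ) ℝ)).prod
    ((J.comp (ContinuousLinearMap.fst ℝ P2 ℝ)).coprod ((ContinuousLinearMap.id ℝ ℝ).smulRight e))

lemma coord_apply (e : E3) (J : P2 →L[ℝ] E3) (x : E3) (q : (P2 × ℝ) × ℝ) :
    ((0 : ℝ), x) + coord e J q = (q.1.2, x + J q.1.1 + q.2 • e) := by
  simp [coord, add_assoc]

lemma fderiv_coord {v : ℝ × E3 → ℝ} (hv : ContDiff ℝ ∞ v) (e : E3) (J : P2 →L[ℝ] E3) (x : E3)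
    (q a : (P2 × ℝ) × ℝ) (ha : a.1.2 = 0) :
    fderiv ℝ (fun p => v (((0 : ℝ), x) + coord e J p)) q a =
      ⟪gradient (fun y => v (q.1.2, y)) (x + J q.1.1 + q.2 • e), J a.1.1 + a.2 • e⟫ := by
  have e1 := ((hv.differentiable (by simp) (((0 : ℝ), x) + coord e J q)).hasFDerivAt.comp q
    (f := fun p => ((0 : ℝ), x) + coord e J p) ((coord e J).hasFDerivAt.const_add _)).fderiv
  refine (congrArg (fun A => A a) e1).trans ?_
  have e2 : coord e J a = (0, J a.1.1 + a.2 • e) := by simp [coord, ha]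
  have e3 := ((hv.differentiable (by simp) (q.1.2, x + J q.1.1 + q.2 • e)).hasFDerivAt.comp
    (x + J q.1.1 + q.2 • e) (f := fun y : E3 => (q.1.2, y))
    (hasFDerivAt_prodMk_right q.1.2 _)).fderiv
  rw [inner_grad]
  refine Eq.trans ?_ (congrArg (fun A => A (J a.1.1 + a.2 • e)) e3).symm
  simp only [ContinuousLinearMap.comp_apply, e2, coord_apply, ContinuousLinearMap.inr_apply]

lemma loc_of_slim {U : Filter ι} (h : SLim U M L I) {e : E3} {J : P2 →L[ℝ] E3} {pr : E3 →L[ℝ] P2}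
    (F : Frame e J pr) (x : E3) :
    Loc U (fun i => {q : (P2 × ℝ) × ℝ | x + J q.1.1 + q.2 • e ∈ M i q.1.2})
      {q | x + J q.1.1 + q.2 • e ∈ L q.1.2} {q | q.1.2 ∈ I} := by
  have hc : Continuous fun q : (P2 × ℝ) × ℝ => (q.1.2, x + J q.1.1 + q.2 • e) := by fun_prop
  refine ⟨fun q hq hn => ?_, fun q hq hm => ?_⟩
  · obtain ⟨W, hW, h1⟩ := h.out _ hq _ hn
    exact ⟨_, hc.continuousAt.preimage_mem_nhds hW, h1.mono fun i hi p hp => hi _ hp⟩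
  · obtain ⟨W, w, v, h1, h2, -, h4, h5, h6, h7, h8⟩ := h.loc _ hq _ hm
    have ha : Tendsto (fun _ : ι => ((0 : ℝ), x)) U (𝓝 (0, x)) := tendsto_const_nhds
    have hL : Tendsto (fun _ : ι => coord e J) U (𝓝 (coord e J)) := tendsto_const_nhds
    obtain ⟨r, hr, h9, h10⟩ := exists_ball_affine ha hL (x := q)
      (by rw [coord_apply]; exact h1.mem_nhds h2)
    refine ⟨ball q r, _, _, isOpen_ball, mem_ball_self hr, cinf_comp_affine h5 h4 h1 ha hL h9 h10,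
      fun h0 => h6 ?_, fun p hp => ?_, h8.mono fun i hi p hp => ?_⟩
    · set g := gradient (fun y => v (q.1.2, y)) (x + J q.1.1 + q.2 • e) with hg
      have h11 := fderiv_coord h4 e J x q ((pr g, 0), ⟪e, g⟫) rfl
      rw [h0, ← hg, F.decomp] at h11
      exact inner_self_eq_zero.1 h11.symm
    · have := h7 _ (h10 p hp)
      rw [coord_apply] at this ⊢
      exact this
    · have := hi _ (h10 p hp)
      rw [coord_apply] at this ⊢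
      exact this

/-- **graphs over one plane** along the filter -/
theorem graph_of_ultra [l.NeBot] (hI : IsOpen I)
    (h : ∀ U : Ultrafilter ι, ↑U ≤ l → SLim U M L I) {t : ℝ} (ht : t ∈ I) {x : E3}
    (hx : x ∈ L t) :
    ∃ (e : E3) (J : P2 →L[ℝ] E3) (pr : E3 →L[ℝ] P2) (δ ρ : ℝ) (f : ι → P2 × ℝ → ℝ)
      (f₀ : P2 × ℝ → ℝ), Frame e J pr ∧ 0 < δ ∧ 0 < ρ ∧ (∀ p ∈ ball ((0 : P2), t) δ, p.2 ∈ I) ∧
      CInf l (ball (0, t) δ) f f₀ ∧ f₀ (0, t) = 0 ∧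
      (∀ p ∈ ball ((0 : P2), t) δ, |f₀ p| < ρ ∧
        ∀ z : ℝ, |z| ≤ ρ → (x + J p.1 + z • e ∈ L p.2 ↔ z = f₀ p)) ∧
      ∀ᶠ i in l, ∀ p ∈ ball ((0 : P2), t) δ, |f i p| < ρ ∧
        ∀ z : ℝ, |z| ≤ ρ → (x + J p.1 + z • e ∈ M i p.2 ↔ z = f i p) := by
  obtain ⟨W, -, v, h1, h2, -, h4, -, h6, h7, -⟩ :=
    (h _ (Ultrafilter.of_le l)).loc t ht x hx
  set g := gradient (fun y => v (t, y)) x with hg
  have hn : 0 < ‖g‖ := norm_pos_iff.2 h6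
  obtain ⟨J, pr, F⟩ := exists_frame (n := ‖g‖⁻¹ • g) (norm_smul_inv_norm h6)
  have hc : Continuous fun q : (P2 × ℝ) × ℝ => ((0 : ℝ), x) + coord (‖g‖⁻¹ • g) J q := by fun_prop
  have e0 : ((0 : ℝ), x) + coord (‖g‖⁻¹ • g) J ((0, t), 0) = (t, x) := by
    rw [coord_apply]; simp
  obtain ⟨δ, ρ, f, f₀, hδ, hρ, a1, a2, a3, a4, a5⟩ := graph_abs (l := l) (q := ((0, t), 0))
    (hI.preimage (by fun_prop : Continuous fun q : (P2 × ℝ) × ℝ => q.1.2))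
    (fun U hU => loc_of_slim (h U hU) F x) ht (h1.preimage hc)
    (by rw [mem_preimage, e0]; exact h2)
    (v := fun p => v (((0 : ℝ), x) + coord (‖g‖⁻¹ • g) J p))
    (h4.comp (contDiff_const.add (coord _ J).contDiff))
    (fun p hp => by
      have := h7 (((0 : ℝ), x) + coord (‖g‖⁻¹ • g) J p) hp
      rw [coord_apply] at this ⊢
      exact this)
    (by rw [e0]; exact (h7 _ h2).1 hx)
    (by
      rw [fderiv_coord h4 _ J x _ (0, 1) rfl]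
      simp only [map_zero, zero_smul, add_zero, Prod.fst_zero, one_smul, zero_add, ← hg]
      rw [real_inner_smul_right, real_inner_self_eq_norm_sq]
      positivity)
  refine ⟨_, J, pr, δ, ρ, f, f₀, F, hδ, hρ,
    fun p hp => a1 (mk_mem_prod hp (mem_closedBall_self hρ.le)), a2, a3, fun p hp => ?_,
    a5.mono fun i hi p hp => ?_⟩
  · exact ⟨mem_ball_zero_iff.1 (a4 p hp).1, fun z hz => (a4 p hp).2 z (mem_closedBall_zero_iff.2 hz)⟩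
  · exact ⟨mem_ball_zero_iff.1 (hi p hp).1, fun z hz => (hi p hp).2 z (mem_closedBall_zero_iff.2 hz)⟩

/-- points off the limit -/
theorem out_of_ultra [l.NeBot] (hI : IsOpen I)
    (h : ∀ U : Ultrafilter ι, ↑U ≤ l → SLim U M L I) {t : ℝ} (ht : t ∈ I) {x : E3}
    (hx : x ∉ L t) : ∃ W ∈ 𝓝 (t, x), ∀ᶠ i in l, ∀ p ∈ W, p.2 ∉ M i p.1 := by
  have h0 := h _ (Ultrafilter.of_le l)
  obtain ⟨W, hW, h1⟩ := h0.out t ht x hx
  have h2 : ∀ᶠ q : ℝ × E3 in 𝓝 (t, x), q.1 ∈ I ∧ q.2 ∉ L q.1 := by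
    filter_upwards [interior_mem_nhds.2 hW,
      continuous_fst.continuousAt.eventually (hI.mem_nhds ht)] with q hq hqI
    refine ⟨hqI, fun hqL => ?_⟩
    obtain ⟨y, y1, y2⟩ := (h0.slice_const hqI).exists_seq hqL
    have h2 : Tendsto (fun i => (q.1, y i)) _ (𝓝 q) := tendsto_const_nhds.prodMk_nhds y1
    obtain ⟨i, a1, a2, a3⟩ :=
      (h1.and (y2.and (h2.eventually (mem_interior_iff_mem_nhds.1 hq)))).exists
    exact a1 _ a3 a2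
  obtain ⟨r, hr, hb⟩ := nhds_basis_closedBall.eventually_iff.1 h2
  refine ⟨_, closedBall_mem_nhds _ hr, ev_compact (isCompact_closedBall (t, x) r)
    (P := fun i p => p.2 ∉ M i p.1) fun U hU p hp => ?_⟩
  obtain ⟨V, hV, a1⟩ := (h U hU).out p.1 (hb hp).1 p.2 (hb hp).2
  obtain ⟨δ, hδ, a2⟩ := Metric.mem_nhds_iff.1 hV
  exact ⟨δ, hδ, a1.mono fun i hi y hy => hi y (a2 hy)⟩

/-- **smooth convergence along all ultrafilters** finer than `l` gives it along `l` -/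
theorem slim_of_ultra [l.NeBot] (hI : IsOpen I)
    (h : ∀ U : Ultrafilter ι, ↑U ≤ l → SLim U M L I) : SLim l M L I := by
  refine ⟨fun t ht x hx => out_of_ultra hI h ht hx, fun t ht x hx => ?_⟩
  obtain ⟨e, J, pr, δ, ρ, f, f₀, F, hδ, hρ, -, a2, a3, a4, a5⟩ := graph_of_ultra hI h ht hx
  have hball : ∀ q ∈ ball (t, x) (min δ ρ),
      (pr (q.2 - x), q.1) ∈ ball ((0 : P2), t) δ ∧ |⟪e, q.2 - x⟫| ≤ ρ := by
    intro q hq
    rw [← ball_prod_same] at hq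
    have b1 := mem_ball_iff_norm.1 hq.2
    rw [← ball_prod_same]
    exact ⟨⟨mem_ball_zero_iff.2 ((F.norm_pr_le _).trans_lt (b1.trans_le (min_le_left _ _))),
      ball_subset_ball (min_le_left _ _) hq.1⟩,
      (abs_inner_le F _).trans (b1.le.trans (min_le_right _ _))⟩
  obtain ⟨η, w, v, hη, b1, b2, b3, b4, b5, b6⟩ := exists_equations isOpen_ball a2
    (A := fun q : ℝ × E3 => (pr (q.2 - x), q.1)) (by fun_prop)
    (ℓ := fun q : ℝ × E3 => ⟪e, q.2 - x⟫) (contDiff_const.inner ℝ (by fun_prop))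
    (q₀ := (t, x)) (lt_min hδ hρ) fun q hq => (hball q hq).1
  refine ⟨ball (t, x) η, w, v, isOpen_ball, mem_ball_self hη, b2, b3, b4, ?_, fun q hq => ?_, ?_⟩
  · refine grad_ne_zero (e := e) (c := f₀ (0, t)) ((contDiff_sl b3 t).differentiable (by simp) x) ?_
    have c1 : Tendsto (fun s : ℝ => (t, x + s • e)) (𝓝 0) (𝓝 (t, x)) :=
      Continuous.tendsto' (by fun_prop) _ _ (by simp)
    filter_upwards [c1.eventually (ball_mem_nhds _ hη)] with s hs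
    rw [b6 _ hs]
    simp [F.pr_n, real_inner_smul_right, F.unit]
  · have c3 := (a4 _ (hball q (b1 hq)).1).2 _ (hball q (b1 hq)).2
    rw [decomp' F] at c3
    rw [b6 q hq, sub_eq_zero]
    exact c3
  · filter_upwards [a5, b5] with i c1 c2 q hq
    have c3 := (c1 _ (hball q (b1 hq)).1).2 _ (hball q (b1 hq)).2
    rw [decomp' F] at c3
    rw [c2 q hq, sub_eq_zero]
    exact c3

end flows

end Vale.Agent.P218S7
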